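import Mathlib
import Vale.Agent.P015.Walk

/-!
Gaussian moat problem: uniform prime-free discs along every line, and no walk to infinity
near a line.
-/

theorem Vale.Agent.Results.P015.StripUniform.result :
    (∀ R : ℝ, ∃ L : ℝ, ∀ u v c t0 : ℝ, u ^ 2 + v ^ 2 = 1 →
      ∃ t ∈ Set.Icc t0 (t0 + L), ∀ z : GaussianInt, Prime z →
        R < ‖(z : ℂ) - (↑(c * u - t * v) + ↑(c * v + t * u) * Complex.I)‖) ∧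
    (∀ D w : ℝ, ∃ L : ℝ, ∀ u v c : ℝ, u ^ 2 + v ^ 2 = 1 →
      ∀ (n : ℕ) (f : ℕ → GaussianInt),
        (∀ i ≤ n, Prime (f i) ∧ |u * ((f i).re : ℝ) + v * ((f i).im : ℝ) - c| ≤ w) →
        (∀ i < n, ‖(f (i + 1) : ℂ) - (f i : ℂ)‖ ≤ D) →
        ‖(f n : ℂ) - (f 0 : ℂ)‖ ≤ L) ∧
    (∀ D : ℝ, ∃ φ : ℝ → ℝ, Filter.Tendsto φ Filter.atTop Filter.atTop ∧
      ∀ u v c : ℝ, u ^ 2 + v ^ 2 = 1 → ¬ ∃ f : ℕ → GaussianInt, Function.Injective f ∧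
        ∀ i, Prime (f i) ∧ ‖(f (i + 1) : ℂ) - (f i : ℂ)‖ ≤ D ∧
          |u * ((f i).re : ℝ) + v * ((f i).im : ℝ) - c| ≤ φ ‖(f i : ℂ)‖) :=
  ⟨Vale.Agent.P015.disc, Vale.Agent.P015.walk, Vale.Agent.P015.no_walk⟩
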